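import Vale.Agent.Lib.P042.Check

namespace Vale.Agent.Results.P042.CubeDifferences

open Finset Vale.Agent.Lib.P042

/-- fourteen residues modulo 91, no two of which differ by a cube modulo 91 -/
def R0 : Finset ℕ := {0, 15, 20, 38, 40, 44, 50, 56, 60, 66, 76, 82, 86, 88}

lemma R0_check : ∀ r ∈ R0, ∀ r' ∈ R0, r ≠ r' → ∀ z ∈ range 91, (r' + z ^ 3) % 91 ≠ r % 91 := by
  decide +kernel

lemma expo : (8616 : ℝ) / 10000 ≤ Real.log (115934 : ℝ) / Real.log (753571 : ℝ) := by
  have h1 : (0 : ℝ) < Real.log (753571 : ℝ) := Real.log_pos (by norm_num)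
  rw [div_le_div_iff₀ (by norm_num) h1]
  have h2n : (753571 : ℕ) ^ 1077 ≤ 115934 ^ 1250 := by decide +kernel
  have h2 : (753571 : ℝ) ^ 1077 ≤ (115934 : ℝ) ^ 1250 := by exact_mod_cast h2n
  have h3 := Real.log_le_log (by positivity) h2
  rw [Real.log_pow, Real.log_pow] at h3
  push_cast at h3
  linarith

/-- For every `N ≥ 1` there is a subset of `{1, ..., N}` with at least `N ^ 0.8616 / 115934` elements,
no two of which differ by a positive cube. -/
theorem result : ∀ N : ℕ, 1 ≤ N → ∃ A : Finset ℕ, A ⊆ Finset.Icc 1 N ∧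
    (∀ a ∈ A, ∀ b ∈ A, ∀ n : ℕ, 1 ≤ n → (a : ℤ) - (b : ℤ) ≠ (n : ℤ) ^ 3) ∧
    (N : ℝ) ^ ((8616 : ℝ) / 10000) / 115934 ≤ (A.card : ℝ) := by
  intro N hN
  have hcard : R0.card = 14 := by decide
  obtain ⟨A, hA, hav, hc⟩ := ruzsa_squarefree (m := 91) (k := 3) (by norm_num) (by norm_num)
    (by decide +kernel) R0 (by decide) (by decide) (avoid_of_range (by norm_num) R0_check) N hN
  refine ⟨A, hA, ?_, ?_⟩
  · intro a ha b hb n hn h
    have hab : a ≠ b := by
      rintro rfl
      have h0 : (0 : ℤ) < (n : ℤ) ^ 3 := by positivity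
      simp at h
      omega
    exact hav a ha b hb hab n h
  · rw [hcard] at hc
    refine le_trans ?_ hc
    have hN' : (1 : ℝ) ≤ N := by exact_mod_cast hN
    have e : (((14 * 91 ^ (3 - 1) : ℕ)) : ℝ) = 115934 := by norm_num
    have e2 : (((91 : ℕ) : ℝ) ^ 3) = 753571 := by norm_num
    rw [e2, e]
    apply div_le_div_of_nonneg_right _ (by norm_num)
    exact Real.rpow_le_rpow_of_exponent_le hN' expo

end Vale.Agent.Results.P042.CubeDifferences
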